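import Vale.Agent.P283.Assembly

/-! Bounded klt complements for finite quotient singularities, in every dimension. -/

namespace Vale.Agent.Results.P283.QuotientKltComplements

open MeasureTheory
open scoped ENNReal

theorem result (d : ℕ) (ε : ℝ) (hε : 0 < ε) :
    ∃ n : ℕ, 0 < n ∧ ∀ G : Subgroup (Matrix.GeneralLinearGroup (Fin d) ℂ), Finite G →
      (∀ g ∈ G, g ≠ 1 → ε ≤ Vale.Agent.P283.age g) →
      ∃ f : MvPolynomial (Fin d) ℂ, f ≠ 0 ∧
        (∀ g ∈ G, ∀ x : Fin d → ℂ,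
          MvPolynomial.eval ((g : Matrix (Fin d) (Fin d) ℂ).mulVec x) f =
            (g : Matrix (Fin d) (Fin d) ℂ).det ^ n * MvPolynomial.eval x f) ∧
        ∀ K : Set (Fin d → ℂ), IsCompact K →
          ∫⁻ x in K, ‖MvPolynomial.eval x f‖ₑ ^ (-((2 : ℝ) / n)) < ⊤ :=
  Vale.Agent.P283.quotient_complement d hε

end Vale.Agent.Results.P283.QuotientKltComplements
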